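import Vale.Agent.P157W88.Main

namespace Vale.Agent.Results.P157.ASurfaceMeasure

open MeasureTheory Vale.Agent.P157W88 Vale.Agent.P157.Par Vale.Agent.P157.Sph

/-- (1) The two reference measures are probability measures, and the normalized Hausdorff measure
of the sphere is the normalized surface measure of polar coordinates. (2) Patterns exist.
(3) The limit of the mean pressure exists on the cube and on the sphere and is given by the
variational formulas. -/
theorem result :
    (∀ N : ℕ, 1 ≤ N → IsProbabilityMeasure (cubeLaw N) ∧ IsProbabilityMeasure (sphereLaw N) ∧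
      sphereLaw N = (((volume : Measure (E N)).toSphere Set.univ)⁻¹ •
        (volume : Measure (E N)).toSphere).map
          fun u : Metric.sphere (0 : E N) 1 => √(N : ℝ) • u.1) ∧
    (∀ M N : ℕ, ∃ (Ω : Type) (_ : MeasurableSpace Ω) (P : Measure Ω) (g : Fin M → Ω → E N),
      IsPatterns P g) ∧
    ∀ f : ℝ → ℝ, Measurable f → ∀ B : ℝ, (∀ x, |f x| ≤ B) → ∀ α : ℝ, 0 < α →
      (∃ L : ℝ, Limit cubeLaw α f L ∧
        IsGLB {y | ∃ (k : ℕ) (m q : ℕ → ℝ), Exponents k m ∧ Path k q ∧ q k < 1 ∧
          IsLUB {y | ∃ r, Path k r ∧ y = parisi α f k m q r} y} L) ∧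
      ∃ L : ℝ, Limit sphereLaw α f L ∧
        IsGLB {y | ∃ (k : ℕ) (m q : ℕ → ℝ), Exponents k m ∧ Path k q ∧ q k < 1 ∧
          y = α * patternPart f k m q + csPart k m q} L := by
  refine ⟨fun N hN => ⟨cubeLaw_prob N, sphereLaw_prob hN, sphereLaw_toSphere hN⟩,
    exists_patterns, fun f hf B hB α hα => ⟨?_, ?_⟩⟩
  · obtain ⟨L, h1, h2⟩ := parisi_formula_all hf hB hα
    exact ⟨L, limit_of cube_prob (fun N _ => cubeLaw_eq N) hf hB h1, h2⟩
  · obtain ⟨L, h1, h2⟩ := usphere_formula hf hB hα
    exact ⟨L, limit_of usphere_prob (fun N hN => sphereLaw_eq hN) hf hB h1, h2⟩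

end Vale.Agent.Results.P157.ASurfaceMeasure
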